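import Vale.Agent.P116.KF.H903.Chi

/-!
# P116, block (E1), measure part: the choice of the scales

A random countable family of disjoint disks `D i ω`, none of which contains the random point
`p ω`. The scales `t` of the averaged cutoff `chi N t` can be chosen in such a way that, outside an
event of small probability, no disk meets two of its annuli. Hence the mean of the sum of the
squared diameters of the images of the disks is at most `C0 / N + C0 η`.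
-/

open Set Filter Topology Metric MeasureTheory
open scoped ENNReal

namespace Vale.Agent.P116.KF.H83

open H903

/-- a disk reaches out to the radius `α` iff `α ≤ |a - p| + r` (one direction) -/
lemma lt_of_far {a p z : ℂ} {r α : ℝ} (hz : z ∈ closedBall a r) (h : ‖a - p‖ + r < α) :
    ‖z - p‖ < α := by
  rw [mem_closedBall, dist_eq_norm] at hz
  calc ‖z - p‖ = ‖(z - a) + (a - p)‖ := by ring_nf
    _ ≤ ‖z - a‖ + ‖a - p‖ := norm_add_le _ _
    _ < α := by linarith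

lemma lt_of_near {a p z : ℂ} {r β : ℝ} (hz : z ∈ closedBall a r) (h : β < ‖a - p‖ - r) :
    β < ‖z - p‖ := by
  rw [mem_closedBall, dist_eq_norm] at hz
  have h1 : ‖a - p‖ ≤ ‖z - p‖ + ‖z - a‖ := by
    calc ‖a - p‖ = ‖(z - p) - (z - a)‖ := by ring_nf
      _ ≤ ‖z - p‖ + ‖z - a‖ := norm_sub_le _ _
  linarith

lemma pos_of_notMem {a p : ℂ} {r : ℝ} (h : p ∉ closedBall a r) : 0 < ‖a - p‖ - r := by
  rw [mem_closedBall, not_le, dist_eq_norm, norm_sub_rev] at h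
  linarith

section

variable {Ω : Type*} [MeasurableSpace Ω] {P : Measure Ω} [IsProbabilityMeasure P]
  {ι : Type*} [Countable ι] {a : ι → Ω → ℂ} {r : ι → Ω → ℝ} {p : Ω → ℂ} {M : ℝ}

/-- the event that some disk meets both `|w - p| ≥ α` and `|w - p| ≤ e⁻ˢ` -/
def Bd (a : ι → Ω → ℂ) (r : ι → Ω → ℝ) (p : Ω → ℂ) (α s : ℝ) : Set Ω :=
  ⋃ i, {ω | α ≤ ‖a i ω - p ω‖ + r i ω ∧ ‖a i ω - p ω‖ - r i ω ≤ Real.exp (-s)}

omit [IsProbabilityMeasure P] in
lemma Bd.null (ha : ∀ i, AEMeasurable (a i) P) (hr : ∀ i, AEMeasurable (r i) P)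
    (hp : AEMeasurable p P) (α s : ℝ) : NullMeasurableSet (Bd a r p α s) P := by
  refine NullMeasurableSet.iUnion fun i => ?_
  have h1 : AEMeasurable (fun ω => ‖a i ω - p ω‖ + r i ω) P := ((ha i).sub hp).norm.add (hr i)
  have h2 : AEMeasurable (fun ω => ‖a i ω - p ω‖ - r i ω) P := ((ha i).sub hp).norm.sub (hr i)
  exact (nullMeasurableSet_le aemeasurable_const h1).inter
    (nullMeasurableSet_le h2 aemeasurable_const)

omit [MeasurableSpace Ω] [Countable ι] in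
lemma Bd.anti (α : ℝ) : Antitone fun n : ℕ => Bd a r p α n := by
  intro m n hmn
  refine iUnion_mono fun i ω h => ⟨h.1, h.2.trans (Real.exp_le_exp.2 ?_)⟩
  have : (m : ℝ) ≤ n := by exact_mod_cast hmn
  linarith

omit [MeasurableSpace Ω] [Countable ι] in
/-- a point of all the bad events: impossible -/
lemma Bd.inter {α : ℝ} (hα : 0 < α) {ω : Ω} (h0 : ∀ i, 0 ≤ r i ω)
    (hd : ∀ i j, i ≠ j → Disjoint (closedBall (a i ω) (r i ω)) (closedBall (a j ω) (r j ω)))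
    (hM : ∀ i, closedBall (a i ω) (r i ω) ⊆ closedBall 0 M)
    (hpd : ∀ i, p ω ∉ closedBall (a i ω) (r i ω)) : ω ∉ ⋂ n : ℕ, Bd a r p α n := by
  classical
  intro hω
  rw [mem_iInter] at hω
  -- the big disks
  set J : Set ι := {i | α / 4 ≤ r i ω} with hJ
  have hJf : J.Finite := by
    rcases isEmpty_or_nonempty ι with hι | ⟨⟨i₀⟩⟩
    · exact toFinite _
    have hM0 : 0 ≤ M := by
      have h := hM i₀ (mem_closedBall_self (h0 i₀))
      rw [mem_closedBall, dist_zero_right] at h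
      exact (norm_nonneg _).trans h
    by_contra hinf
    obtain ⟨T, hT, hcard⟩ := (show J.Infinite from hinf).exists_subset_card_eq
      (⌊M ^ 2 / (α / 4) ^ 2⌋₊ + 1)
    have h1 : ∑ i ∈ T, r i ω ^ 2 ≤ M ^ 2 :=
      sum_sq_le T (fun i => a i ω) (fun i => r i ω) (fun i _ => h0 i)
        (fun i _ j _ hij => hd i j hij) hM0 fun i _ => hM i
    have h2 : ((⌊M ^ 2 / (α / 4) ^ 2⌋₊ + 1 : ℕ) : ℝ) * (α / 4) ^ 2 ≤ ∑ i ∈ T, r i ω ^ 2 := by
      rw [← hcard, ← nsmul_eq_mul]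
      refine Finset.card_nsmul_le_sum T _ _ fun i hi => ?_
      have : α / 4 ≤ r i ω := hT hi
      gcongr
    have h3 : M ^ 2 / (α / 4) ^ 2 < ((⌊M ^ 2 / (α / 4) ^ 2⌋₊ + 1 : ℕ) : ℝ) := by
      push_cast
      exact Nat.lt_floor_add_one _
    rw [div_lt_iff₀ (by positivity)] at h3
    linarith
  -- a level at which no disk is bad
  have hb : ∃ β > 0, ∀ i ∈ J, β ≤ ‖a i ω - p ω‖ - r i ω := by
    rcases hJf.toFinset.eq_empty_or_nonempty with h | h
    · refine ⟨1, one_pos, fun i hi => ?_⟩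
      rw [← hJf.mem_toFinset, h] at hi
      simp at hi
    · refine ⟨hJf.toFinset.inf' h fun i => ‖a i ω - p ω‖ - r i ω, ?_, fun i hi =>
        Finset.inf'_le _ (hJf.mem_toFinset.2 hi)⟩
      rw [gt_iff_lt, Finset.lt_inf'_iff]
      exact fun i _ => pos_of_notMem (hpd i)
  obtain ⟨β, hβ, hβJ⟩ := hb
  obtain ⟨n, hn⟩ : ∃ n : ℕ, Real.exp (-(n : ℝ)) < min β (α / 2) := by
    have h1 : Tendsto (fun n : ℕ => Real.exp (-(n : ℝ))) atTop (𝓝 0) :=
      Real.tendsto_exp_neg_atTop_nhds_zero.comp tendsto_natCast_atTop_atTop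
    exact (h1.eventually (gt_mem_nhds (lt_min hβ (half_pos hα)))).exists
  obtain ⟨i, hi⟩ := mem_iUnion.1 (hω n)
  obtain ⟨h1, h2⟩ : α ≤ ‖a i ω - p ω‖ + r i ω ∧ ‖a i ω - p ω‖ - r i ω ≤ Real.exp (-(n : ℝ)) := hi
  have h3 : i ∈ J := by
    have := (hn.trans_le (min_le_right _ _))
    show α / 4 ≤ r i ω
    linarith
  have h4 := hβJ i h3
  have h5 := hn.trans_le (min_le_left _ _)
  linarith

/-- one step: the probability that a disk meets both regions tends to zero -/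
lemma exists_scale (ha : ∀ i, AEMeasurable (a i) P) (hr : ∀ i, AEMeasurable (r i) P)
    (hp : AEMeasurable p P) (h0 : ∀ᵐ ω ∂P, ∀ i, 0 ≤ r i ω)
    (hd : ∀ᵐ ω ∂P, ∀ i j, i ≠ j →
      Disjoint (closedBall (a i ω) (r i ω)) (closedBall (a j ω) (r j ω)))
    (hM : ∀ᵐ ω ∂P, ∀ i, closedBall (a i ω) (r i ω) ⊆ closedBall 0 M)
    (hpd : ∀ᵐ ω ∂P, ∀ i, p ω ∉ closedBall (a i ω) (r i ω)) {α : ℝ} (hα : 0 < α) {η : ℝ≥0∞}
    (hη : η ≠ 0) : ∃ n₀ : ℕ, ∀ n ≥ n₀, P (Bd a r p α n) ≤ η := by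
  have h1 : Tendsto (fun n : ℕ => P (Bd a r p α n)) atTop (𝓝 (P (⋂ n : ℕ, Bd a r p α n))) :=
    tendsto_measure_iInter_atTop (fun n => Bd.null ha hr hp α n) (Bd.anti α)
      ⟨0, measure_ne_top _ _⟩
  have h2 : P (⋂ n : ℕ, Bd a r p α n) = 0 := by
    have : ∀ᵐ ω ∂P, ω ∉ ⋂ n : ℕ, Bd a r p α n := by
      filter_upwards [h0, hd, hM, hpd] with ω h3 h4 h5 h6
      exact Bd.inter hα h3 h4 h5 h6
    rw [ae_iff] at this
    simp only [not_not] at this
    exact this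
  rw [h2] at h1
  obtain ⟨n₀, hn₀⟩ := eventually_atTop.1 (h1.eventually (gt_mem_nhds (pos_iff_ne_zero.2 hη)))
  exact ⟨n₀, fun n hn => (hn₀ n hn).le⟩

/-- the favourable event of `sum_diam_chi_good` -/
def Gd (N : ℕ) (t : ℕ → ℝ) (a : ι → Ω → ℂ) (r : ι → Ω → ℝ) (p : Ω → ℂ) (ω : Ω) : Prop :=
  ∀ i, ∀ k, k + 1 < N →
    (∀ z ∈ closedBall (a i ω) (r i ω), ‖z - p ω‖ < Real.exp (-t k - 1)) ∨
    (∀ z ∈ closedBall (a i ω) (r i ω), Real.exp (-t (k + 1)) < ‖z - p ω‖)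

/-- **the choice of the scales** -/
theorem exists_scales (ha : ∀ i, AEMeasurable (a i) P) (hr : ∀ i, AEMeasurable (r i) P)
    (hp : AEMeasurable p P) (h0 : ∀ᵐ ω ∂P, ∀ i, 0 ≤ r i ω)
    (hd : ∀ᵐ ω ∂P, ∀ i j, i ≠ j →
      Disjoint (closedBall (a i ω) (r i ω)) (closedBall (a j ω) (r j ω)))
    (hM : ∀ᵐ ω ∂P, ∀ i, closedBall (a i ω) (r i ω) ⊆ closedBall 0 M)
    (hpd : ∀ᵐ ω ∂P, ∀ i, p ω ∉ closedBall (a i ω) (r i ω)) (N : ℕ) (t₀ : ℝ) {η : ℝ}
    (hη : 0 < η) :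
    ∃ t : ℕ → ℝ, (∀ k, t k + 1 ≤ t (k + 1)) ∧ t₀ ≤ t 0 ∧
      ∃ B : Set Ω, MeasurableSet B ∧ P B ≤ ENNReal.ofReal η ∧ ∀ ω ∉ B, Gd N t a r p ω := by
  classical
  have hη' : ENNReal.ofReal (η / (N + 1)) ≠ 0 := by
    rw [Ne, ENNReal.ofReal_eq_zero, not_le]
    positivity
  have key : ∀ s : ℝ, ∃ s' : ℝ, s + 1 ≤ s' ∧
      P (Bd a r p (Real.exp (-s - 1)) s') ≤ ENNReal.ofReal (η / (N + 1)) := by
    intro s
    obtain ⟨n₀, hn₀⟩ := exists_scale ha hr hp h0 hd hM hpd (Real.exp_pos (-s - 1)) hη'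
    refine ⟨(max n₀ ⌈s + 1⌉₊ : ℕ), ?_, hn₀ _ (le_max_left _ _)⟩
    refine (Nat.le_ceil _).trans ?_
    exact_mod_cast le_max_right _ _
  choose nx hnx1 hnx2 using key
  let t : ℕ → ℝ := fun k => Nat.rec t₀ (fun _ s => nx s) k
  have ht : ∀ k, t (k + 1) = nx (t k) := fun k => rfl
  refine ⟨t, fun k => by rw [ht]; exact hnx1 _, le_rfl,
    toMeasurable P (⋃ k ∈ Finset.range N, Bd a r p (Real.exp (-t k - 1)) (t (k + 1))),
    measurableSet_toMeasurable _ _, ?_, ?_⟩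
  · rw [measure_toMeasurable]
    calc P (⋃ k ∈ Finset.range N, Bd a r p (Real.exp (-t k - 1)) (t (k + 1)))
        ≤ ∑ k ∈ Finset.range N, P (Bd a r p (Real.exp (-t k - 1)) (t (k + 1))) :=
          measure_biUnion_finset_le _ _
      _ ≤ ∑ k ∈ Finset.range N, ENNReal.ofReal (η / (N + 1)) :=
          Finset.sum_le_sum fun k _ => by rw [ht]; exact hnx2 _
      _ = N * ENNReal.ofReal (η / (N + 1)) := by
          rw [Finset.sum_const, Finset.card_range, nsmul_eq_mul]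
      _ = ENNReal.ofReal (N * (η / (N + 1))) := by
          rw [ENNReal.ofReal_mul (Nat.cast_nonneg N), ENNReal.ofReal_natCast]
      _ ≤ ENNReal.ofReal η := by
          refine ENNReal.ofReal_le_ofReal ?_
          rw [mul_div_assoc', div_le_iff₀ (by positivity)]
          nlinarith [(Nat.cast_nonneg N : (0:ℝ) ≤ N)]
  · intro ω hω i k hk
    have h1 : ω ∉ Bd a r p (Real.exp (-t k - 1)) (t (k + 1)) := fun h =>
      hω (subset_toMeasurable _ _ (mem_biUnion (Finset.mem_coe.2 (Finset.mem_range.2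
        (Nat.lt_of_succ_lt hk))) h))
    have h2 : ¬ (Real.exp (-t k - 1) ≤ ‖a i ω - p ω‖ + r i ω ∧
        ‖a i ω - p ω‖ - r i ω ≤ Real.exp (-(t (k + 1)))) := fun h => h1 (mem_iUnion.2 ⟨i, h⟩)
    rw [not_and_or, not_le, not_le] at h2
    rcases h2 with h2 | h2
    · exact Or.inl fun z hz => lt_of_far hz h2
    · exact Or.inr fun z hz => lt_of_near hz h2

/-- **the mean of the sum of the squared diameters** -/
theorem lintegral_diam_le (ha : ∀ i, AEMeasurable (a i) P) (hr : ∀ i, AEMeasurable (r i) P)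
    (hp : AEMeasurable p P) (h0 : ∀ᵐ ω ∂P, ∀ i, 0 ≤ r i ω)
    (hd : ∀ᵐ ω ∂P, ∀ i j, i ≠ j →
      Disjoint (closedBall (a i ω) (r i ω)) (closedBall (a j ω) (r j ω)))
    (hM : ∀ᵐ ω ∂P, ∀ i, closedBall (a i ω) (r i ω) ⊆ closedBall 0 M)
    (hpd : ∀ᵐ ω ∂P, ∀ i, p ω ∉ closedBall (a i ω) (r i ω)) {N : ℕ} (hN : 0 < N) (t₀ : ℝ)
    {η : ℝ} (hη : 0 < η) :
    ∃ t : ℕ → ℝ, (∀ k, t k + 1 ≤ t (k + 1)) ∧ t₀ ≤ t 0 ∧
      ∫⁻ ω, ∑' i, ENNReal.ofReal
        (diam ((fun w => chi N t (w - p ω)) '' closedBall (a i ω) (r i ω)) ^ 2) ∂P ≤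
        ENNReal.ofReal (C0 / N + C0 * η) := by
  obtain ⟨t, ht, ht0, B, hB, hPB, hG⟩ := exists_scales ha hr hp h0 hd hM hpd N t₀ hη
  have hmono : Monotone t := monotone_nat_of_le_succ fun k => by linarith [ht k]
  refine ⟨t, ht, ht0, ?_⟩
  have hbound : ∀ᵐ ω ∂P, ∑' i, ENNReal.ofReal
      (diam ((fun w => chi N t (w - p ω)) '' closedBall (a i ω) (r i ω)) ^ 2) ≤
      ENNReal.ofReal (C0 / N) + B.indicator (fun _ => ENNReal.ofReal C0) ω := by
    filter_upwards [h0, hd] with ω h1 h2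
    rw [ENNReal.tsum_eq_iSup_sum]
    refine iSup_le fun s => ?_
    rw [← ENNReal.ofReal_sum_of_nonneg fun i _ => sq_nonneg _]
    by_cases hω : ω ∈ B
    · rw [indicator_of_mem hω]
      refine le_add_left (ENNReal.ofReal_le_ofReal ?_)
      exact sum_diam_chi (a := fun i => a i ω) (r := fun i => r i ω) (p ω) (fun i _ => h1 i)
        fun i _ j _ hij => h2 i j hij
    · rw [indicator_of_notMem hω, add_zero]
      refine ENNReal.ofReal_le_ofReal ?_
      exact sum_diam_chi_good (a := fun i => a i ω) (r := fun i => r i ω) hN hmono (p ω)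
        (fun i _ => h1 i) (fun i _ j _ hij => h2 i j hij) fun i _ k hk => hG ω hω i k hk
  calc ∫⁻ ω, ∑' i, ENNReal.ofReal
        (diam ((fun w => chi N t (w - p ω)) '' closedBall (a i ω) (r i ω)) ^ 2) ∂P
      ≤ ∫⁻ ω, ENNReal.ofReal (C0 / N) + B.indicator (fun _ => ENNReal.ofReal C0) ω ∂P :=
        lintegral_mono_ae hbound
    _ = ENNReal.ofReal (C0 / N) + ENNReal.ofReal C0 * P B := by
        rw [lintegral_add_left measurable_const, lintegral_const, measure_univ, mul_one,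
          lintegral_indicator_const hB]
    _ ≤ ENNReal.ofReal (C0 / N) + ENNReal.ofReal C0 * ENNReal.ofReal η := by gcongr
    _ = ENNReal.ofReal (C0 / N + C0 * η) := by
        rw [← ENNReal.ofReal_mul C0_pos.le, ← ENNReal.ofReal_add
          (div_nonneg C0_pos.le (Nat.cast_nonneg N)) (mul_nonneg C0_pos.le hη.le)]

end

end Vale.Agent.P116.KF.H83
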